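import Mathlib
import Vale.Agent.P157.Defs

/-!
The Parisi functional of the Gaussian perceptron on the Ising cube.
-/

noncomputable section

open MeasureTheory ProbabilityTheory

namespace Vale.Agent.P157.Parisi

/-- One Parisi step: `(1/m) log E exp (m F (x + √δ g))`. -/
def layer (m δ : ℝ) (F : ℝ → ℝ) (x : ℝ) : ℝ :=
  1 / m * Real.log (∫ g, Real.exp (m * F (x + Real.sqrt δ * g)) ∂gaussianReal 0 1)

/-- The mean of `h` under the one-step tilt `exp (m F)`. -/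
def tilt (m δ : ℝ) (F h : ℝ → ℝ) (x : ℝ) : ℝ :=
  (∫ g, Real.exp (m * F (x + Real.sqrt δ * g)) * h (x + Real.sqrt δ * g) ∂gaussianReal 0 1) /
    ∫ g, Real.exp (m * F (x + Real.sqrt δ * g)) ∂gaussianReal 0 1

/-- The Parisi recursion with exponents `m`, path `q` and terminal function `φ`: `level m q φ r = φ`
and `level m q φ p = layer (m p) (q (p+1) - q p) (level m q φ (p+1))`. -/
def level : {r : ℕ} → (Fin r → ℝ) → (Fin (r + 1) → ℝ) → (ℝ → ℝ) → Fin (r + 1) → ℝ → ℝ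
  | 0, _, _, φ, _ => φ
  | r + 1, m, q, φ, p =>
    Fin.cases (layer (m 0) (q 1 - q 0) (level (Fin.tail m) (Fin.tail q) φ 0))
      (fun p' => level (Fin.tail m) (Fin.tail q) φ p') p

/-- The mean at depth `0` of a function `h` of the field at depth `p`, through the successive
tilts. -/
def down : {r : ℕ} → (Fin r → ℝ) → (Fin (r + 1) → ℝ) → (ℝ → ℝ) → Fin (r + 1) → (ℝ → ℝ) → ℝ → ℝ
  | 0, _, _, _, _, h => h
  | r + 1, m, q, φ, p, h =>
    Fin.cases h
      (fun p' => tilt (m 0) (q 1 - q 0) (level (Fin.tail m) (Fin.tail q) φ 0)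
        (down (Fin.tail m) (Fin.tail q) φ p' h)) p

/-- The top function: `log E exp f (x + √δ η)`. -/
def topMean (f : ℝ → ℝ) (δ : ℝ) (x : ℝ) : ℝ :=
  Real.log (∫ η, Real.exp (f (x + Real.sqrt δ * η)) ∂gaussianReal 0 1)

/-- The pattern part: `E F₀ (√q₀ g)`. -/
def patValue {r : ℕ} (f : ℝ → ℝ) (m : Fin r → ℝ) (q : Fin (r + 1) → ℝ) : ℝ :=
  ∫ g, level m q (topMean f (1 - q (Fin.last r))) 0 (Real.sqrt (q 0) * g) ∂gaussianReal 0 1

/-- The conjugate path: the tilted mean of `(F_p')²`. -/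
def slope {r : ℕ} (f : ℝ → ℝ) (m : Fin r → ℝ) (q : Fin (r + 1) → ℝ) (p : Fin (r + 1)) : ℝ :=
  ∫ g, down m q (topMean f (1 - q (Fin.last r))) p
      (fun x => deriv (level m q (topMean f (1 - q (Fin.last r))) p) x ^ 2)
      (Real.sqrt (q 0) * g) ∂gaussianReal 0 1

/-- The site part for a field covariance path `ρ`: `E G₀ (√ρ₀ g) - ρ_r / 2`, `G_r = log cosh`. -/
def siteValue {r : ℕ} (m : Fin r → ℝ) (ρ : Fin (r + 1) → ℝ) : ℝ :=
  (∫ g, level m ρ (fun x => Real.log (Real.cosh x)) 0 (Real.sqrt (ρ 0) * g) ∂gaussianReal 0 1) -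
    ρ (Fin.last r) / 2

/-- The mass of the overlap distribution at depth `p`. -/
def weight {r : ℕ} (m : Fin r → ℝ) (p : Fin (r + 1)) : ℝ :=
  (Fin.snoc m 1 : Fin (r + 1) → ℝ) p - (Fin.cons 0 m : Fin (r + 1) → ℝ) p

/-- The Parisi functional at the path `(m, q)`. -/
def parisi {r : ℕ} (α : ℝ) (f : ℝ → ℝ) (m : Fin r → ℝ) (q : Fin (r + 1) → ℝ) : ℝ :=
  α * patValue f m q + siteValue m (fun p => α * slope f m q p) +
    α / 2 * ∑ p, weight m p * q p * slope f m q p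

/-- A discrete order parameter. -/
structure IsPath {r : ℕ} (m : Fin r → ℝ) (q : Fin (r + 1) → ℝ) : Prop where
  pos : ∀ i, 0 < m i
  lt_one : ∀ i, m i < 1
  strictMono : StrictMono m
  mono : Monotone q
  nonneg : 0 ≤ q 0
  le_one : q (Fin.last r) ≤ 1

/-- The values of the functional over all discrete paths. -/
def parisiValues (α : ℝ) (f : ℝ → ℝ) : Set ℝ :=
  {v | ∃ (r : ℕ) (m : Fin r → ℝ) (q : Fin (r + 1) → ℝ), IsPath m q ∧ v = parisi α f m q}

end Vale.Agent.P157.Parisi
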