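import Vale.Agent.P157.Parisi.Defs
import Vale.Agent.P157.Potential
import Vale.Agent.P157.Blocks
import Vale.Agent.P168.Cascade.Moments

/-!
Objects used in the proof of the Parisi formula: states on the cube, observables of fresh patterns,
the perturbed system and the cavity value.
-/

noncomputable section

open MeasureTheory ProbabilityTheory
open scoped BigOperators NNReal ENNReal

namespace Vale.Agent.P157.Parisi

open Vale.Agent.P168 (Shape shapeProb shapeMarks)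

/-- A bounded log-potential with three bounded derivatives. -/
structure Smooth (f : ℝ → ℝ) (A : ℝ) : Prop where
  d0 : Differentiable ℝ f
  d1 : Differentiable ℝ (deriv f)
  d2 : Differentiable ℝ (deriv (deriv f))
  b0 : ∀ z, |f z| ≤ A
  b1 : ∀ z, |deriv f z| ≤ A
  b2 : ∀ z, |deriv (deriv f) z| ≤ A
  b3 : ∀ z, |deriv (deriv (deriv f)) z| ≤ A

/-- A bundled path. -/
structure Path where
  r : ℕ
  m : Fin r → ℝ
  q : Fin (r + 1) → ℝ
  isPath : IsPath m q

/-- The mean at depth `p` of a function `h` of the field at the top. -/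
def up : {r : ℕ} → (Fin r → ℝ) → (Fin (r + 1) → ℝ) → (ℝ → ℝ) → Fin (r + 1) → (ℝ → ℝ) → ℝ → ℝ
  | 0, _, _, _, _, h => h
  | r + 1, m, q, φ, p, h =>
    Fin.cases (tilt (m 0) (q 1 - q 0) (level (Fin.tail m) (Fin.tail q) φ 0)
        (up (Fin.tail m) (Fin.tail q) φ 0 h))
      (fun p' => up (Fin.tail m) (Fin.tail q) φ p' h) p

/-- An observable of the top field, averaged over the innermost Gaussian under `exp f`. -/
def bar (f : ℝ → ℝ) (δ : ℝ) (h : ℝ → ℝ) (x : ℝ) : ℝ :=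
  (∫ η, Real.exp (f (x + Real.sqrt δ * η)) * h (x + Real.sqrt δ * η) ∂gaussianReal 0 1) /
    ∫ η, Real.exp (f (x + Real.sqrt δ * η)) ∂gaussianReal 0 1

/-- The top function of a path. -/
abbrev Path.top (ξ : Path) (f : ℝ → ℝ) : ℝ → ℝ := topMean f (1 - ξ.q (Fin.last ξ.r))

/-- The tilted mean of an observable of one replica. -/
def Path.oneVal (ξ : Path) (f h : ℝ → ℝ) : ℝ :=
  ∫ g, down ξ.m ξ.q (ξ.top f) (Fin.last ξ.r) (bar f (1 - ξ.q (Fin.last ξ.r)) h)
    (Real.sqrt (ξ.q 0) * g) ∂gaussianReal 0 1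

/-- The tilted mean of a product of observables of two replicas meeting at depth `p`. -/
def Path.pairVal (ξ : Path) (f : ℝ → ℝ) (p : Fin (ξ.r + 1)) (h h' : ℝ → ℝ) : ℝ :=
  ∫ g, down ξ.m ξ.q (ξ.top f) p
    (fun x => up ξ.m ξ.q (ξ.top f) p (bar f (1 - ξ.q (Fin.last ξ.r)) h) x *
      up ξ.m ξ.q (ξ.top f) p (bar f (1 - ξ.q (Fin.last ξ.r)) h') x)
    (Real.sqrt (ξ.q 0) * g) ∂gaussianReal 0 1

/-- An observable `h (S^a) h' (S^b)` of one pattern. -/
structure Obs (n : ℕ) where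
  a : Fin n
  b : Fin n
  h : ℝ → ℝ
  h' : ℝ → ℝ

/-- Continuous bounded factors. -/
def Obs.Good {n : ℕ} (o : Obs n) : Prop :=
  Continuous o.h ∧ Continuous o.h' ∧ ∃ C, ∀ z, |o.h z| ≤ C ∧ |o.h' z| ≤ C

/-- The value of an observable. -/
def Obs.eval {n : ℕ} (o : Obs n) (s : Fin n → ℝ) : ℝ := o.h (s o.a) * o.h' (s o.b)

/-- The limiting value of an observable given the tree of the replicas. -/
def Obs.val {n : ℕ} (o : Obs n) (ξ : Path) (f : ℝ → ℝ) (v : Shape ξ.r n) : ℝ :=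
  if o.a = o.b then ξ.oneVal f (fun z => o.h z * o.h' z)
  else ξ.pairVal f (v o.a o.b) o.h o.h'

/-- The overlap matrix of a tree. -/
def Path.gram (ξ : Path) {n : ℕ} (v : Shape ξ.r n) : Fin n → Fin n → ℝ :=
  fun a b => if a = b then 1 else ξ.q (v a b)

/-- The expectation of a function of `n` replicas' overlaps along a path. -/
def Path.treeExp (ξ : Path) (n : ℕ) (F : (Fin n → Fin n → ℝ) → ℝ) : ℝ :=
  ∑ v : Shape ξ.r n, shapeProb ξ.m n v * F (ξ.gram v)

/-- The limit of a fresh-pattern mean. -/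
def Path.treePat (ξ : Path) (f : ℝ → ℝ) {k n : ℕ} (F : (Fin n → Fin n → ℝ) → ℝ)
    (o : Fin k → Obs n) : ℝ :=
  ∑ v : Shape ξ.r n, shapeProb ξ.m n v * (F (ξ.gram v) * ∏ j, (o j).val ξ f v)

/-- The field of a cascade leaf with root variable `g₀` and marks `ω`. -/
def pathField {r : ℕ} (q : Fin (r + 1) → ℝ) (g₀ : ℝ) (ω : Fin r → ℝ) : ℝ :=
  Real.sqrt (q 0) * g₀ + ∑ p : Fin r, Real.sqrt (q p.succ - q p.castSucc) * ω p

/-- The field at depth `p`. -/
def partField {r : ℕ} (q : Fin (r + 1) → ℝ) (g₀ : ℝ) (ω : Fin r → ℝ) (p : Fin (r + 1)) : ℝ :=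
  Real.sqrt (q 0) * g₀ +
    ∑ i : Fin r, if i.val < p.val then Real.sqrt (q i.succ - q i.castSucc) * ω i else 0

/-! ### States on the cube -/

/-- Configurations. -/
abbrev Cube (N : ℕ) := Fin N → Bool

/-- `±1` coordinates. -/
def sv {N : ℕ} (σ : Cube N) (i : Fin N) : ℝ := if σ i then 1 else -1

/-- Normalised configuration. -/
def unitVec {N : ℕ} (σ : Cube N) (i : Fin N) : ℝ := sv σ i / Real.sqrt N

/-- The overlap. -/
def overlap {N : ℕ} (σ τ : Cube N) : ℝ := (∑ i, sv σ i * sv τ i) / N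

/-- The overlap matrix of replicas. -/
def overlaps {N n : ℕ} (σ : Fin n → Cube N) : Fin n → Fin n → ℝ :=
  fun a b => overlap (σ a) (σ b)

/-- Random weights on the cube. -/
structure State (N : ℕ) where
  Ω : Type
  mΩ : MeasurableSpace Ω
  law : @Measure Ω mΩ
  w : Ω → Cube N → ℝ

attribute [instance] State.mΩ

/-- The requirements on a state. -/
structure State.IsGood {N : ℕ} (S : State N) : Prop where
  prob : IsProbabilityMeasure S.law
  meas : ∀ σ, Measurable fun ω => S.w ω σ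
  nonneg : ∀ ω σ, 0 ≤ S.w ω σ
  sum_one : ∀ ω, ∑ σ, S.w ω σ = 1

/-- The mean of a function of `n` replicas. -/
def State.repMean {N : ℕ} (S : State N) (n : ℕ) (F : (Fin n → Cube N) → ℝ) : ℝ :=
  ∫ ω, ∑ σ : Fin n → Cube N, (∏ l, S.w ω (σ l)) * F σ ∂S.law

/-- `n` replicas under `k` fresh patterns. -/
def State.patMean {N : ℕ} (S : State N) (f : ℝ → ℝ) {k n : ℕ}
    (F : (Fin n → Fin n → ℝ) → ℝ) (o : Fin k → Obs n) : ℝ :=
  ∫ ω, ∫ g : Fin k → Fin N → ℝ,
    (∑ σ : Fin n → Cube N, (∏ l, S.w ω (σ l) * Real.exp (∑ j, f (dot (g j) (unitVec (σ l))))) *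
        (F (overlaps σ) * ∏ j, (o j).eval fun l => dot (g j) (unitVec (σ l)))) /
      (∑ σ : Cube N, S.w ω σ * Real.exp (∑ j, f (dot (g j) (unitVec σ)))) ^ n
    ∂(Measure.pi fun _ => gam (Fin N)) ∂S.law

/-- `E log` of the average weight of `k` fresh patterns. -/
def State.logMean {N : ℕ} (S : State N) (f : ℝ → ℝ) (k : ℕ) : ℝ :=
  ∫ ω, ∫ g : Fin k → Fin N → ℝ,
    Real.log (∑ σ : Cube N, S.w ω σ * Real.exp (∑ j, f (dot (g j) (unitVec σ))))
    ∂(Measure.pi fun _ => gam (Fin N)) ∂S.law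

/-- The states are asymptotically the cascades of the paths. -/
def Approx (N : ℕ → ℕ) (S : ∀ j, State (N j)) (ξ : ℕ → Path) : Prop :=
  ∀ (n : ℕ) (F : (Fin n → Fin n → ℝ) → ℝ), Continuous F →
    Filter.Tendsto (fun j => (S j).repMean n (fun σ => F (overlaps σ)) - (ξ j).treeExp n F)
      Filter.atTop (nhds 0)

/-- The Ghirlanda–Guerra identity for the power `p + 1` of the overlap holds up to `δ`. -/
def GGWithin {N : ℕ} (S : State N) (p : ℕ) (δ : ℝ) : Prop :=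
  ∀ (n : ℕ) (F : (Fin (n + 1) → Cube N) → ℝ), (∀ σ, |F σ| ≤ 1) →
    |((n : ℝ) + 1) * S.repMean (n + 2)
        (fun σ => F (fun l => σ l.castSucc) * overlap (σ 0) (σ (Fin.last (n + 1))) ^ (p + 1)) -
      (S.repMean (n + 1) F * S.repMean 2 (fun σ => overlap (σ 0) (σ 1) ^ (p + 1)) +
        ∑ l : Fin n, S.repMean (n + 1)
          (fun σ => F σ * overlap (σ 0) (σ l.succ) ^ (p + 1)))| ≤ ((n : ℝ) + 1) * δ

/-! ### The perturbed system -/

/-- Coordinates of the perturbation: a power and a tuple of sites. -/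
abbrev PertIdx (N L : ℕ) := (p : Fin L) × (Fin (p.val + 1) → Fin N)

/-- The perturbation field. -/
def pertH {N L : ℕ} (s : ℝ) (x : Fin L → ℝ) (J : PertIdx N L → ℝ) (σ : Cube N) : ℝ :=
  ∑ c : PertIdx N L, J c * (s * x c.1 * (1 / 2) ^ (c.1.val + 1) * ∏ i, unitVec σ (c.2 i))

/-- The disorder: number of patterns, patterns, perturbation. -/
abbrev Dis (N L : ℕ) := ℕ × (ℕ → Fin N → ℝ) × (PertIdx N L → ℝ)

/-- Its law. -/
def disLaw (N L : ℕ) (μ : ℝ) : Measure (Dis N L) :=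
  (poissonMeasure μ.toNNReal).prod
    ((Measure.infinitePi fun _ : ℕ => gam (Fin N)).prod (gam (PertIdx N L)))

/-- The perturbed Hamiltonian. -/
def totalH {N L : ℕ} (f : ℝ → ℝ) (s : ℝ) (x : Fin L → ℝ) (d : Dis N L) (σ : Cube N) : ℝ :=
  (∑ a ∈ Finset.range d.1, f (dot (d.2.1 a) (unitVec σ))) + pertH s x d.2.2 σ

/-- The perturbed system as a state. -/
def sysState (N : ℕ) {L : ℕ} (f : ℝ → ℝ) (s : ℝ) (x : Fin L → ℝ) (μ : ℝ) : State N where
  Ω := Dis N L
  mΩ := inferInstance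
  law := disLaw N L μ
  w d σ := Real.exp (totalH f s x d σ) / ∑ τ, Real.exp (totalH f s x d τ)

/-- `E log` of the partition function, normalised by the uniform law. -/
def logPartS (N : ℕ) {L : ℕ} (f : ℝ → ℝ) (s : ℝ) (x : Fin L → ℝ) (μ : ℝ) : ℝ :=
  ∫ d, Real.log ((∑ σ : Cube N, Real.exp (totalH f s x d σ)) / 2 ^ N) ∂disLaw N L μ

/-- The strength of the perturbation. -/
def scale (N : ℕ) : ℝ := (N : ℝ) ^ (3 / 8 : ℝ)

/-- Uniform law on `[1, 2]^L`. -/
def xLaw (L : ℕ) : Measure (Fin L → ℝ) := Measure.pi fun _ => volume.restrict (Set.Icc 1 2)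

/-- Truncation at height `T`. -/
def clampT (T z : ℝ) : ℝ := max (-T) (min T z)

/-- The cavity exponent. -/
def cavB {N L : ℕ} (f : ℝ → ℝ) (T : ℝ) (d : Dis N L) (σ : Cube N) : ℝ :=
  (∑ a ∈ Finset.range d.1, (deriv (deriv f) (dot (d.2.1 a) (unitVec σ)) -
    clampT T (dot (d.2.1 a) (unitVec σ)) * deriv f (dot (d.2.1 a) (unitVec σ)))) / (2 * N)

/-- The cavity field. -/
def cavY {N L : ℕ} (f : ℝ → ℝ) (z : ℕ → ℝ) (d : Dis N L) (σ : Cube N) : ℝ :=
  (∑ a ∈ Finset.range d.1, z a * deriv f (dot (d.2.1 a) (unitVec σ))) / Real.sqrt N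

/-- The cavity value of the perturbed system. -/
def cavVal (N : ℕ) {L : ℕ} (f : ℝ → ℝ) (T s : ℝ) (x : Fin L → ℝ) (μ : ℝ) : ℝ :=
  ∫ d, ∫ z, Real.log (∑ σ : Cube N, (sysState N f s x μ).w d σ *
      (Real.cosh (cavY f z d σ) * Real.exp (cavB f T d σ)))
    ∂(Measure.infinitePi fun _ : ℕ => gaussianReal 0 1) ∂disLaw N L μ

end Vale.Agent.P157.Parisi
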