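import Vale.Agent.P157.Parisi.System

/-!
Interfaces between the parts of the proof of the Parisi formula, as propositions.
-/

noncomputable section

open MeasureTheory ProbabilityTheory Filter
open scoped BigOperators NNReal ENNReal Topology

namespace Vale.Agent.P157.Parisi

open Vale.Agent.P168 (Shape shapeMarks genNested)
open Vale.Agent.P168.Cascade (Exps Bdd IsTree cond condD logW tableLaw)

/-- Module A1: the recursion as nested means of a cascade. -/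
def BridgeStmt : Prop :=
  ∀ (r : ℕ) (m : Fin r → ℝ) (q : Fin (r + 1) → ℝ), IsPath m q →
    ∀ (φ ψ : ℝ → ℝ) (C : ℝ), Continuous φ → Continuous ψ → (∀ x, |φ x| ≤ C) → (∀ x, |ψ x| ≤ C) →
    ∀ (g₀ : ℝ) (ω : Fin r → ℝ),
      genNested (gaussianReal 0 1) m (fun η => Real.exp (φ (pathField q g₀ η))) =
          Real.exp (level m q φ 0 (Real.sqrt (q 0) * g₀)) ∧
        ∀ p : Fin (r + 1),
          cond (gaussianReal 0 1) m (fun η => Real.exp (φ (pathField q g₀ η))) p.val ω =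
              Real.exp (level m q φ p (partField q g₀ ω p)) ∧
          condD (gaussianReal 0 1) m (fun η => Real.exp (φ (pathField q g₀ η)))
              (fun η => Real.exp (φ (pathField q g₀ η)) * ψ (pathField q g₀ η)) p.val ω =
            up m q φ p ψ (partField q g₀ ω p)

/-- Module A2: the conjugate path. -/
def SlopeStmt : Prop :=
  ∀ (f : ℝ → ℝ) (A : ℝ), Smooth f A → ∀ ξ : Path,
    Monotone (slope f ξ.m ξ.q) ∧
      ∀ p, 0 ≤ slope f ξ.m ξ.q p ∧ slope f ξ.m ξ.q p = ξ.pairVal f p (deriv f) (deriv f) ∧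
        slope f ξ.m ξ.q p ≤ ξ.oneVal f (fun z => deriv f z * deriv f z) ∧
        ξ.oneVal f (fun z => deriv f z * deriv f z) ≤ A ^ 2

/-- Module A3: tilts of independent mark families factor. -/
def TiltFactorStmt : Prop :=
  ∀ (β γ : Type) [MeasurableSpace β] [MeasurableSpace γ] (ν : Measure β) (μ : Measure γ)
    [IsProbabilityMeasure ν] [IsProbabilityMeasure μ] (r k : ℕ) (m : Fin r → ℝ), Exps m →
    ∀ (C : ℝ) (Y : (Fin r → β) → ℝ) (Z : (Fin r → γ) → ℝ), Bdd C Y → Bdd C Z →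
    ∀ (g : Fin k → (Fin r → β) → ℝ) (h : Fin k → (Fin r → γ) → ℝ),
      (∀ a, Measurable (g a)) → (∀ a, Measurable (h a)) →
      (∀ a ω, |g a ω| ≤ C) → (∀ a ω, |h a ω| ≤ C) → ∀ v : Shape r k, IsTree v →
      ∫ ω : Fin r → Fin k → β × γ,
          Real.exp (logW (ν.prod μ) m
              (fun η => Y (fun i => (η i).1) * Z (fun i => (η i).2)) v ω) *
            ∏ a, (g a (fun i => (shapeMarks v ω a i).1) * h a (fun i => (shapeMarks v ω a i).2))
          ∂tableLaw (ν.prod μ) r k =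
        (∫ ω, Real.exp (logW ν m Y v ω) * ∏ a, g a (shapeMarks v ω a) ∂tableLaw ν r k) *
          ∫ ω, Real.exp (logW μ m Z v ω) * ∏ a, h a (shapeMarks v ω a) ∂tableLaw μ r k

/-- The factor of an observable at replica `l`, averaged over the innermost Gaussian. -/
def Obs.barAt {n : ℕ} (o : Obs n) (f : ℝ → ℝ) (δ : ℝ) (l : Fin n) (x : ℝ) : ℝ :=
  if o.a = o.b then if l = o.a then bar f δ (fun z => o.h z * o.h' z) x else 1
  else if l = o.a then bar f δ o.h x else if l = o.b then bar f δ o.h' x else 1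

/-- The weight of `k` fresh patterns at a leaf. -/
def leafY (ξ : Path) (f : ℝ → ℝ) {k : ℕ} (g₀ : Fin k → ℝ) (η : Fin ξ.r → Fin k → ℝ) : ℝ :=
  ∏ j, Real.exp (ξ.top f (pathField ξ.q (g₀ j) fun p => η p j))

/-- Module A4: the tilted mean of fresh-pattern observables on a given tree. -/
def TreeShapeStmt : Prop :=
  ∀ (f : ℝ → ℝ) (A : ℝ), Smooth f A → ∀ (ξ : Path) (k n : ℕ) (o : Fin k → Obs n),
    (∀ j, (o j).Good) → ∀ v : Shape ξ.r n, IsTree v →
      ∫ g₀ : Fin k → ℝ, ∫ ω : Fin ξ.r → Fin n → Fin k → ℝ,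
          Real.exp (logW (gam (Fin k)) ξ.m (leafY ξ f g₀) v ω) *
            ∏ l, (leafY ξ f g₀ (shapeMarks v ω l) *
              ∏ j, (o j).barAt f (1 - ξ.q (Fin.last ξ.r)) l
                (pathField ξ.q (g₀ j) fun p => shapeMarks v ω l p j))
          ∂tableLaw (gam (Fin k)) ξ.r n ∂gam (Fin k) =
        ∏ j, (o j).val ξ f v

/-- Module C: the upper bound. -/
def UpperStmt : Prop :=
  ∀ (α A : ℝ) (f : ℝ → ℝ), 0 < α → Smooth f A → BlockConcave f → ∀ ξ : Path, ∀ ε > 0,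
    ∀ᶠ N : ℕ in atTop, meanPressure isingLaw α f N ≤ parisi α f ξ.m ξ.q + ε

/-- Module D: the perturbation forces the Ghirlanda–Guerra identities. -/
def PerturbStmt : Prop :=
  ∀ (α A C : ℝ) (f : ℝ → ℝ), 0 < α → Smooth f A → ∀ μ : ℕ → ℝ, (∀ N, 0 ≤ μ N) →
    (∀ N, |μ N - α * N| ≤ C) →
    ∃ δ : (N : ℕ) → ℕ → (Fin N → ℝ) → ℝ,
      (∀ N p, Measurable (δ N p)) ∧ (∀ N p x, 0 ≤ δ N p x ∧ δ N p x ≤ 2) ∧
      (∀ N p x, (∀ i, x i ∈ Set.Icc (1 : ℝ) 2) →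
        GGWithin (sysState N f (scale N) x (μ N)) p (δ N p x)) ∧
      ∀ p, Tendsto (fun N => ∫ x, δ N p x ∂xLaw N) atTop (𝓝 0)

/-- Module E: the identities force asymptotically a cascade. -/
def TreeApproxStmt : Prop :=
  ∀ (N : ℕ → ℕ) (S : ∀ j, State (N j)), Tendsto N atTop atTop → (∀ j, (S j).IsGood) →
    ∀ δ : ℕ → ℕ → ℝ, (∀ p, Tendsto (fun j => δ j p) atTop (𝓝 0)) →
      (∀ j p, GGWithin (S j) p (δ j p)) →
      ∃ (φ : ℕ → ℕ) (ξ : ℕ → Path), StrictMono φ ∧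
        Approx (fun j => N (φ j)) (fun j => S (φ j)) ξ

/-- Module F1: fresh patterns in asymptotic cascades. -/
def ContStmt : Prop :=
  ∀ (A : ℝ) (f : ℝ → ℝ), Smooth f A → ∀ (N : ℕ → ℕ) (S : ∀ j, State (N j)) (ξ : ℕ → Path),
    (∀ j, 0 < N j) → (∀ j, (S j).IsGood) → Approx N S ξ →
    ∀ (k n : ℕ) (F : (Fin n → Fin n → ℝ) → ℝ) (o : Fin k → Obs n), Continuous F →
      (∀ i, (o i).Good) →
      Tendsto (fun j => (S j).patMean f F o - (ξ j).treePat f F o) atTop (𝓝 0)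

/-- Module F2: the logarithm of the weight of fresh patterns. -/
def LogStmt : Prop :=
  ∀ (A : ℝ) (f : ℝ → ℝ), Smooth f A → ∀ (N : ℕ → ℕ) (S : ∀ j, State (N j)) (ξ : ℕ → Path),
    (∀ j, 0 < N j) → (∀ j, (S j).IsGood) → Approx N S ξ → ∀ k : ℕ,
      Tendsto (fun j => (S j).logMean f k - k * patValue f (ξ j).m (ξ j).q) atTop (𝓝 0)

/-- Module G1: adding one site. -/
def CavityStmt : Prop :=
  ∀ (α A C : ℝ) (f : ℝ → ℝ), 0 < α → Smooth f A → ∀ ε > 0, ∃ T₀ : ℝ, ∀ T ≥ T₀, ∀ᶠ N : ℕ in atTop,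
    ∀ μ : ℝ, 0 ≤ μ → |μ - α * N| ≤ C → ∀ x : Fin N → ℝ, (∀ i, x i ∈ Set.Icc (1 : ℝ) 2) →
      cavVal N f T (scale N) x μ - ε ≤
        logPartS (N + 1) f (scale N) x μ - logPartS N f (scale N) x μ

/-- Module G2: the change of the perturbation. -/
def PertChangeStmt : Prop :=
  ∀ (α A C : ℝ) (f : ℝ → ℝ), 0 < α → Smooth f A → ∀ μ : ℕ → ℝ, (∀ N, 0 ≤ μ N) →
    (∀ N, |μ N - α * N| ≤ C) →
    Tendsto (fun N => (∫ x, logPartS (N + 1) f (scale (N + 1)) x (μ N) ∂xLaw (N + 1)) -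
      ∫ x, logPartS (N + 1) f (scale N) x (μ N) ∂xLaw N) atTop (𝓝 0)

/-- Module H: the cavity value in asymptotic cascades. -/
def SiteStmt : Prop :=
  ∀ (α A C : ℝ) (f : ℝ → ℝ), 0 < α → Smooth f A → ∀ (N : ℕ → ℕ) (x : ∀ j, Fin (N j) → ℝ)
    (μ : ℕ → ℝ) (ξ : ℕ → Path), Tendsto N atTop atTop → (∀ j, 0 < N j) → (∀ j, 0 ≤ μ j) →
    (∀ j, |μ j - α * N j| ≤ C) →
    Approx N (fun j => sysState (N j) f (scale (N j)) (x j) (μ j)) ξ →
    ∀ ε > 0, ∃ T₀ : ℝ, ∀ T ≥ T₀, ∀ᶠ j in atTop,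
      siteValue (ξ j).m (fun p => α * slope f (ξ j).m (ξ j).q p) +
          α / 2 * ∑ p, weight (ξ j).m p * (ξ j).q p * slope f (ξ j).m (ξ j).q p - ε ≤
        cavVal (N j) f T (scale (N j)) (x j) (μ j)

/-- The lower bound. -/
def LowerStmt : Prop :=
  ∀ (α A : ℝ) (f : ℝ → ℝ), 0 < α → Smooth f A → ∀ ε > 0,
    ∀ᶠ N : ℕ in atTop, ∃ v ∈ parisiValues α f, v ≤ meanPressure isingLaw α f N + ε

end Vale.Agent.P157.Parisi
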