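import Vale.Agent.P157.Parisi.Perturb.Main

/-! Module D of the Parisi formula: `Perturb.perturb_stmt : PerturbStmt`. -/
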